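import Vale.Agent.P210I97.Defs

/-! Geodesics and the exponential map of a connection. -/

namespace Vale.Agent.P234I

open scoped Manifold ContDiff
open Vale.Agent.P210I Vale.Agent.P234Z57

variable {E : Type} [NormedAddCommGroup E] [NormedSpace ℝ E]
  {M : Type} [TopologicalSpace M] [ChartedSpace E M] [IsManifold 𝓘(ℝ, E) ∞ M]

/-- A geodesic defined on the whole line: a smooth curve with `D_t c' = 0`. -/
def Geod (cov : Conn E M) (c : ℝ → M) : Prop := SmoothCurve E c ∧ ∀ t, IsAcc cov c t 0

/-- `e` is the exponential map: `e x v = c(1)` for the geodesic `c` with `c(0) = x`,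
`c'(0) = v`. -/
def IsExpOf (cov : Conn E M) (e : (x : M) → Tan E x → M) : Prop :=
  ∀ (x : M) (v : Tan E x) (c : ℝ → M), Geod cov c → Starts c x v → e x v = c 1

end Vale.Agent.P234I
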