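import Vale.Agent.P234I97.Defs
import Vale.Agent.P210I97.Geo
import Vale.Agent.P234Z57.Main

/-! Geodesics of the Levi-Civita connection are the solutions of the geodesic equation. -/

set_option maxSynthPendingDepth 3
set_option linter.unusedSectionVars false

namespace Vale.Agent.P234I

open scoped Manifold ContDiff Topology
open Bundle Filter Vale.Agent.P211 Vale.Agent.P211Z Vale.Agent.P210I Vale.Agent.P234Z57
  Vale.Agent.P216.Chart Vale.Agent.P234

variable {E : Type} [NormedAddCommGroup E] [NormedSpace ℝ E] [FiniteDimensional ℝ E]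
  {M : Type} [MetricSpace M] [ChartedSpace E M] [IsManifold 𝓘(ℝ, E) ∞ M]
  [RiemannianBundle fun x : M => Tan E x]
  [IsContMDiffRiemannianBundle 𝓘(ℝ, E) ∞ E fun x : M => Tan E x]
  [IsRiemannianManifold 𝓘(ℝ, E) M] {cov : Conn E M} {c : ℝ → M}

theorem acc_zero (h : IsLeviCivita cov) (hc : IsGeodesic E c) (t : ℝ) : IsAcc cov c t 0 := by
  obtain ⟨w, hw, -⟩ := acc_exu h hc.1 t
  have ht := mem_chart_source E (c t)
  have key : ∀ a : E, inner ℝ w (cf (c t) a (c t)) = 0 := by
    intro a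
    obtain ⟨W, hW⟩ := exists_cf ht a
    have h1 := hw.pair h hc.1 W
    have h2 := d_bil (G := metric (c t)) (cd_crd hc.1 ht) (diff_metric ht) a
    have h3 : (fun s => inner ℝ (vel E c s) (W (c s)))
        =ᶠ[𝓝 t] fun s => metric (c t) (crd E (c t) c s) (deriv (crd E (c t) c) s) a := by
      filter_upwards [(hc.1 t).continuousAt.eventually (chart_source_mem_nhds E (c t)),
        (hc.1 t).continuousAt.eventually hW] with s a1 a2
      rw [vel_cf hc.1 a1, a2, inner_cf a1, coef_eq]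
      rfl
    have h4 : cov W (c t) = cov (cf (c t) a) (c t) :=
      cov.isCovariantDerivativeOnUniv.congr_of_eventuallyEq (VF.mdiff W _) (sm_cf ht a).md
        univ_mem hW
    rw [h4, vel_cf hc.1 ht, koszul_cf h ht, hW.self_of_nhds] at h1
    have h5 := (h1.unique (h2.congr_of_eventuallyEq h3)).trans ((hc.el ht).2.2 a)
    exact add_eq_right.1 h5
  have h0 : w = 0 := by
    let a : E := dm E (chartAt E (c t)) (c t) w
    have h6 : cf (c t) a (c t) = w := (inv_of_ld (ld (E := E) ht)).inverse_apply_self w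
    have h7 := key a
    rw [h6] at h7
    exact inner_self_eq_zero.1 h7
  rwa [h0] at hw

theorem geod_iff (h : IsLeviCivita cov) : Geod cov c ↔ IsGeodesic E c :=
  ⟨fun hc => isGeodesic h hc.1 hc.2, fun hc => ⟨hc.1, acc_zero h hc⟩⟩

theorem main [CompactSpace M] [ConnectedSpace M] :
    (∃ cov : Conn E M, IsLeviCivita cov) ∧ ∀ cov : Conn E M, IsLeviCivita cov →
      (∀ cov' : Conn E M, IsLeviCivita cov' → Agree cov' cov) ∧
      (∀ c : ℝ → M, SmoothCurve E c → ∀ t, ∃! w, IsAcc cov c t w) ∧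
      (∀ (x : M) (v : Tan E x), ∃! c : ℝ → M, Geod cov c ∧ Starts c x v) ∧
      (∃! e, IsExpOf cov e) ∧ ∀ e, IsExpOf cov e →
        (∀ (x : M) (v : Tan E x) (c : ℝ → M), Geod cov c → Starts c x v →
          ∀ t : ℝ, e x (t • v) = c t) ∧
        (∀ x : M, IsOpen (injDomain (E := E) e x)) ∧
        (∀ x : M, ∀ v ∈ injDomain (E := E) e x, ∀ᶠ p in 𝓝 (x, e x v),
          ContMDiffAt (𝓘(ℝ, E).prod 𝓘(ℝ, E)) 𝓘(ℝ, ℝ) ∞ (fun p : M × M => cost p.1 p.2) p) ∧
        (WeakMTW (E := E) e → ∀ x : M, Convex ℝ (injDomain (E := E) e x)) := by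
  refine ⟨exists_lc, fun cov h => ?_⟩
  obtain ⟨h1, h2, h3⟩ := P234Z57.main (E := E) (M := M)
  have h4 : ∀ e, IsExpOf cov e → e = P234Z57.exp := fun e he => by
    funext x v
    obtain ⟨c, hc, -⟩ := h1 x v
    rw [he x v c ((geod_iff h).2 hc.1) hc.2, ← h2 x v c hc.1 hc.2 1, one_smul]
  refine ⟨fun cov' h' Y => lc_unique h h' Y, fun c hc t => acc_exu h hc t, fun x v => ?_,
    ⟨P234Z57.exp, fun x v c hc hs => ?_, h4⟩, fun e he => ?_⟩
  · simpa only [geod_iff h] using h1 x v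
  · rw [← h2 x v c ((geod_iff h).1 hc) hs 1, one_smul]
  · rw [h4 e he]
    exact ⟨fun x v c hc hs => h2 x v c ((geod_iff h).1 hc) hs, h3⟩

end Vale.Agent.P234I
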